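import Vale.Agent.P181.DH.H674.Star
import Vale.Agent.P181.DH.Defs

set_option autoImplicit false

/-!
# P181, DH: the semigroup property with the number of letters
-/

open MvPolynomial

namespace Vale.Agent.P181.DH.H674

open Vale.Agent.P181.T4 (HW mem_HW)
open Vale.Agent.P181.SZ (TI mem_TI)

variable {m : ℕ}

lemma mem_sy {p a : ℕ} {mu : Fin m → ℕ} {f : MvPolynomial (Fin m × Fin p) ℂ}
    (hf : f ∈ TI p a m mu) : Sy m (Fin p) f := (mem_TI.1 hf).2.1

/-- The letters of the elements of `TI`. -/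
noncomputable def LT (p a m : ℕ) (mu : Fin m → ℕ) : Submodule ℂ (MvPolynomial (Fin m → ℕ) ℂ) :=
  LinearMap.range ((Th m (Fin p)).domRestrict (TI p a m mu))

instance (p a m : ℕ) (mu : Fin m → ℕ) : FiniteDimensional ℂ (LT p a m mu) := by
  unfold LT
  infer_instance

lemma mem_LT {p a : ℕ} {mu : Fin m → ℕ} {x : MvPolynomial (Fin m → ℕ) ℂ} :
    x ∈ LT p a m mu ↔ ∃ f ∈ TI p a m mu, Th m (Fin p) f = x := by
  unfold LT
  rw [LinearMap.mem_range]
  constructor
  · rintro ⟨⟨f, hf⟩, rfl⟩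
    exact ⟨f, hf, rfl⟩
  · rintro ⟨f, hf, rfl⟩
    exact ⟨⟨f, hf⟩, rfl⟩

lemma finrank_LT (p a m : ℕ) (mu : Fin m → ℕ) :
    Module.finrank ℂ (LT p a m mu) = Module.finrank ℂ (TI p a m mu) := by
  apply LinearMap.finrank_range_of_inj
  rw [injective_iff_map_eq_zero]
  rintro ⟨f, hf⟩ h
  have h1 : Th m (Fin p) f = 0 := h
  exact Subtype.ext (Th_inj (mem_sy hf) h1)

/-- Multiples of `LT`. -/
noncomputable def ML (x : MvPolynomial (Fin m → ℕ) ℂ) (p a : ℕ) (mu : Fin m → ℕ) :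
    Submodule ℂ (MvPolynomial (Fin m → ℕ) ℂ) :=
  (LT p a m mu).map (LinearMap.mulLeft ℂ x)

instance (x : MvPolynomial (Fin m → ℕ) ℂ) (p a : ℕ) (mu : Fin m → ℕ) :
    FiniteDimensional ℂ (ML x p a mu) := by
  unfold ML
  infer_instance

lemma finrank_ML {x : MvPolynomial (Fin m → ℕ) ℂ} (hx : x ≠ 0) (p a : ℕ) (mu : Fin m → ℕ) :
    Module.finrank ℂ (ML x p a mu) = Module.finrank ℂ (TI p a m mu) := by
  rw [← finrank_LT]
  have hinj : Function.Injective (LinearMap.mulLeft ℂ x) := by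
    intro y z h
    exact mul_left_cancel₀ hx h
  exact (Submodule.equivMapOfInjective (LinearMap.mulLeft ℂ x) hinj _).finrank_eq.symm

lemma mem_ML {x y : MvPolynomial (Fin m → ℕ) ℂ} {p a : ℕ} {mu : Fin m → ℕ} :
    y ∈ ML x p a mu ↔ ∃ f ∈ TI p a m mu, x * Th m (Fin p) f = y := by
  unfold ML
  rw [Submodule.mem_map]
  constructor
  · rintro ⟨z, hz, rfl⟩
    obtain ⟨f, hf, rfl⟩ := mem_LT.1 hz
    exact ⟨f, hf, rfl⟩
  · rintro ⟨f, hf, rfl⟩
    exact ⟨_, mem_LT.2 ⟨f, hf, rfl⟩, rfl⟩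

/-- The product of two letters polynomials comes from the symmetrised product. -/
lemma mul_mem_LT {p M a : ℕ} {mu nu : Fin m → ℕ} {f : MvPolynomial (Fin m × Fin p) ℂ}
    {g : MvPolynomial (Fin m × Fin M) ℂ} (hf : f ∈ TI p a m mu) (hg : g ∈ TI M a m nu) :
    Th m (Fin p) f * Th m (Fin M) g ∈ LT (p + M) a m (mu + nu) := by
  have hc : (((p + M).factorial : ℕ) : ℂ) ≠ 0 := Nat.cast_ne_zero.2 (Nat.factorial_ne_zero _)
  refine mem_LT.2 ⟨((((p + M).factorial : ℕ) : ℂ))⁻¹ • star f g,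
    Submodule.smul_mem _ _ (star_mem hf hg), ?_⟩
  rw [map_smul, Th_star, smul_smul, inv_mul_cancel₀ hc, one_smul]

end Vale.Agent.P181.DH.H674

namespace Vale.Agent.P181.DH

open Vale.Agent.P181.T4 (HW mem_HW)
open Vale.Agent.P181.SZ (TI mem_TI)
open Vale.Agent.P181.DH.H674

/-- **(H2)** -/
theorem monoTI : MonoTI := by
  intro a M m nu
  have hX : (X 0 : MvPolynomial (Fin m → ℕ) ℂ) ≠ 0 := X_ne_zero _
  rw [← finrank_ML hX M a nu, ← finrank_LT (M + 1) a m nu]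
  apply Submodule.finrank_mono
  intro y hy
  obtain ⟨f, hf, rfl⟩ := mem_ML.1 hy
  have h := mul_mem_LT hf (one_mem a 1 m)
  rw [add_zero, Th_one, pow_one, mul_comm] at h
  exact h

/-- `j` triangles. -/
theorem tri_pow (hT : TriT) (a m : ℕ) (ha : 2 ≤ a) (j : ℕ) :
    ∃ P ∈ TI (3 * j) a (m + 2) (fun i => if (i : ℕ) < 2 then 2 * j else 0),
      ¬ (X 0 : MvPolynomial (Fin (m + 2) → ℕ) ℂ) ∣ Th (m + 2) (Fin (3 * j)) P := by
  induction j with
  | zero =>
    refine ⟨1, ?_, ?_⟩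
    · have h := one_mem a (3 * 0) (m + 2)
      have e : (0 : Fin (m + 2) → ℕ) = fun i : Fin (m + 2) => if (i : ℕ) < 2 then 2 * 0 else 0 := by
        funext i
        simp
      rw [e] at h
      exact h
    · rw [Th_one]
      exact X_prime.not_dvd_one
  | succ j ih =>
    obtain ⟨P, hP, hd⟩ := ih
    obtain ⟨Q, hQ, v, hv, hc⟩ := hT a m ha
    have hd' := not_dvd (mem_sy hQ) hv hc
    refine ⟨star P Q, ?_, ?_⟩
    · have h := star_mem hP hQ
      have e : (fun i : Fin (m + 2) => if (i : ℕ) < 2 then 2 * j else 0) +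
          (fun i : Fin (m + 2) => if (i : ℕ) < 2 then 2 else 0) =
          fun i : Fin (m + 2) => if (i : ℕ) < 2 then 2 * (j + 1) else 0 := by
        funext i
        rw [Pi.add_apply]
        split_ifs
        · ring
        · rfl
      rw [e] at h
      exact h
    · intro h
      have hc : (((3 * j + 3).factorial : ℕ) : ℂ) ≠ 0 :=
        Nat.cast_ne_zero.2 (Nat.factorial_ne_zero _)
      have h1 : Th (m + 2) (Fin (3 * j + 3)) (star P Q) =
          (((3 * j + 3).factorial : ℕ) : ℂ) • (Th (m + 2) _ P * Th (m + 2) _ Q) := Th_star P Q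
      obtain ⟨q, hq⟩ := h
      have h2 : (X 0 : MvPolynomial (Fin (m + 2) → ℕ) ℂ) ∣
          Th (m + 2) (Fin (3 * j)) P * Th (m + 2) (Fin 3) Q := by
        refine ⟨((((3 * j + 3).factorial : ℕ) : ℂ))⁻¹ • q, ?_⟩
        rw [mul_smul_comm, ← hq]
        change _ = _ • Th (m + 2) (Fin (3 * j + 3)) (star P Q)
        rw [h1, smul_smul, inv_mul_cancel₀ hc, one_smul]
      rcases X_prime.dvd_or_dvd h2 with h3 | h3
      · exact hd h3
      · exact hd' h3

/-- **(H3)** -/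
theorem semT (hT : TriT) : SemT := by
  intro a M m j mu nu ha hmu hnu
  obtain ⟨P, hP, hd⟩ := tri_pow hT a m ha j
  have hP0 : Th (m + 2) (Fin (3 * j)) P ≠ 0 := by
    intro h
    rw [h] at hd
    exact hd (dvd_zero _)
  have hX0 : (X 0 : MvPolynomial (Fin (m + 2) → ℕ) ℂ) ^ M ≠ 0 := pow_ne_zero _ (X_ne_zero _)
  rw [← finrank_ML hX0 (3 * j) a mu, ← finrank_ML hP0 M a nu, ← finrank_LT (3 * j + M)]
  have hinf : ML ((X 0 : MvPolynomial (Fin (m + 2) → ℕ) ℂ) ^ M) (3 * j) a mu ⊓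
      ML (Th (m + 2) (Fin (3 * j)) P) M a nu = ⊥ := by
    rw [Submodule.eq_bot_iff]
    rintro y ⟨hy1, hy2⟩
    obtain ⟨f, _, hf⟩ := mem_ML.1 hy1
    obtain ⟨h, hh, hh'⟩ := mem_ML.1 hy2
    have h1 : (X 0 : MvPolynomial (Fin (m + 2) → ℕ) ℂ) ^ M ∣ Th (m + 2) (Fin M) h := by
      apply X_prime.pow_dvd_of_dvd_mul_left M hd
      rw [hh', ← hf]
      exact dvd_mul_right _ _
    have h2 : h = 0 := by
      by_contra h0
      obtain ⟨v, hv⟩ := ne_zero_iff.1 h0
      have h3 : v = 0 := eq_zero_of_dvd (mem_sy hh) (by rw [Fintype.card_fin]; exact h1) hv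
      apply hnu
      funext i
      rw [← (mem_HW.1 (mem_TI.1 hh).1).1 v hv i, h3]
      simp
    rw [← hh', h2, map_zero, mul_zero]
  have hsup := Submodule.finrank_sup_add_finrank_inf_eq
    (ML ((X 0 : MvPolynomial (Fin (m + 2) → ℕ) ℂ) ^ M) (3 * j) a mu)
    (ML (Th (m + 2) (Fin (3 * j)) P) M a nu)
  rw [hinf, finrank_bot, add_zero] at hsup
  rw [← hsup]
  apply Submodule.finrank_mono
  apply sup_le
  · intro y hy
    obtain ⟨f, hf, rfl⟩ := mem_ML.1 hy
    have h := mul_mem_LT hf (one_mem a M (m + 2))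
    rw [add_zero, Th_one] at h
    rw [mul_comm (X 0 ^ M)]
    exact h
  · intro y hy
    obtain ⟨h, hh, rfl⟩ := mem_ML.1 hy
    have h1 := mul_mem_LT hP hh
    have e : (fun i : Fin (m + 2) => if (i : ℕ) < 2 then 2 * j else 0) + nu = mu := by
      funext i
      rw [Pi.add_apply, hmu i, add_comm]
    rw [e] at h1
    exact h1

end Vale.Agent.P181.DH
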