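import Vale.Agent.P181.DH.H674.Th
import Vale.Agent.P181.SZR1a.TI

set_option autoImplicit false

/-!
# P181, DH: the symmetrised product of polynomials in disjoint columns
-/

open MvPolynomial

namespace Vale.Agent.P181.DH.H674

open Vale.Agent.P181.SZR5 (ren ren_row HW_mul HW_one)
open Vale.Agent.P181.T4 (HW)
open Vale.Agent.P181.SZ (TI mem_TI)

variable {m : ℕ} {σ τ : Type}

/-- Highest weight, degree at most `a` in each column, translation invariant. -/
def Ad (m : ℕ) (σ : Type) [Fintype σ] (a : ℕ) (mu : Fin m → ℕ)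
    (f : MvPolynomial (Fin m × σ) ℂ) : Prop :=
  f ∈ HW m σ mu ∧ (∀ v, coeff v f ≠ 0 → ∀ j, ∑ i, v (i, j) ≤ a) ∧
    ∀ i, ∑ j, pderiv (i, j) f = 0

lemma Ad.ren [Fintype σ] [Fintype τ] {a : ℕ} {mu : Fin m → ℕ} {f : MvPolynomial (Fin m × σ) ℂ}
    (hf : Ad m σ a mu f) (e : σ ≃ τ) : Ad m τ a mu (ren m e f) := by
  obtain ⟨h1, h2, h3⟩ := hf
  refine ⟨ren_row h1, fun v hv j => ?_, fun i => ?_⟩
  · obtain ⟨u, rfl, hu⟩ := coeff_rename_ne_zero _ _ _ hv
    obtain ⟨c, rfl⟩ := e.surjective j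
    rw [Finset.sum_congr rfl fun i _ => map_at e.injective u i c]
    exact h2 u hu c
  · have h4 : ∑ j : τ, pderiv (i, j) (SZR5.ren m e f) = SZR5.ren m e (∑ c : σ, pderiv (i, c) f) := by
      rw [map_sum]
      refine (Fintype.sum_equiv e _ _ fun c => ?_).symm
      exact (pderiv_rename (pinj e.injective) (i, c) f).symm
    rw [h4, h3 i, map_zero]

lemma pd_inl (i : Fin m) (c : σ) (f : MvPolynomial (Fin m × σ) ℂ) :
    pderiv (i, (Sum.inl c : σ ⊕ τ)) (SZR5.ren m (Sum.inl : σ → σ ⊕ τ) f) =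
      SZR5.ren m Sum.inl (pderiv (i, c) f) :=
  pderiv_rename (pinj Sum.inl_injective) (i, c) f

lemma pd_inr (i : Fin m) (c : τ) (f : MvPolynomial (Fin m × τ) ℂ) :
    pderiv (i, (Sum.inr c : σ ⊕ τ)) (SZR5.ren m (Sum.inr : τ → σ ⊕ τ) f) =
      SZR5.ren m Sum.inr (pderiv (i, c) f) :=
  pderiv_rename (pinj Sum.inr_injective) (i, c) f

lemma pd_inl_inr (i : Fin m) (c : σ) (f : MvPolynomial (Fin m × τ) ℂ) :
    pderiv (i, (Sum.inl c : σ ⊕ τ)) (SZR5.ren m (Sum.inr : τ → σ ⊕ τ) f) = 0 := by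
  classical
  apply pderiv_eq_zero_of_notMem_vars
  intro h
  have h1 := vars_rename _ _ h
  rw [Finset.mem_image] at h1
  obtain ⟨p, _, hp⟩ := h1
  have h2 := congrArg Prod.snd hp
  simp at h2

lemma pd_inr_inl (i : Fin m) (c : τ) (f : MvPolynomial (Fin m × σ) ℂ) :
    pderiv (i, (Sum.inr c : σ ⊕ τ)) (SZR5.ren m (Sum.inl : σ → σ ⊕ τ) f) = 0 := by
  classical
  apply pderiv_eq_zero_of_notMem_vars
  intro h
  have h1 := vars_rename _ _ h
  rw [Finset.mem_image] at h1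
  obtain ⟨p, _, hp⟩ := h1
  have h2 := congrArg Prod.snd hp
  simp at h2

lemma Ad.mul [Fintype σ] [Fintype τ] {a : ℕ} {mu nu : Fin m → ℕ}
    {f : MvPolynomial (Fin m × σ) ℂ} {g : MvPolynomial (Fin m × τ) ℂ}
    (hf : Ad m σ a mu f) (hg : Ad m τ a nu g) :
    Ad m (σ ⊕ τ) a (mu + nu) (SZR5.ren m Sum.inl f * SZR5.ren m Sum.inr g) := by
  classical
  obtain ⟨h1, h2, h3⟩ := hf
  obtain ⟨g1, g2, g3⟩ := hg
  refine ⟨HW_mul (ren_row h1) (ren_row g1), fun v hv j => ?_, fun i => ?_⟩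
  · rw [coeff_mul] at hv
    obtain ⟨p, hp, hp'⟩ := Finset.exists_ne_zero_of_sum_ne_zero hv
    obtain ⟨u, hu, hu'⟩ := coeff_rename_ne_zero _ _ _ (left_ne_zero_of_mul hp')
    obtain ⟨u2, hu2, hu2'⟩ := coeff_rename_ne_zero _ _ _ (right_ne_zero_of_mul hp')
    rw [← Finset.HasAntidiagonal.mem_antidiagonal.1 hp, ← hu, ← hu2]
    rcases j with c | c
    · have e1 : ∀ i, (u.mapDomain (fun p : Fin m × σ => (p.1, (Sum.inl p.2 : σ ⊕ τ))) +
          u2.mapDomain (fun p : Fin m × τ => (p.1, (Sum.inr p.2 : σ ⊕ τ)))) (i, Sum.inl c) =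
          u (i, c) := by
        intro i
        have h4 : u2.mapDomain (fun p : Fin m × τ => (p.1, (Sum.inr p.2 : σ ⊕ τ)))
            (i, Sum.inl c) = 0 := by
          apply Finsupp.mapDomain_of_notMem_range
          rintro ⟨p, hp⟩
          have h3 := congrArg Prod.snd hp
          simp at h3
        rw [Finsupp.add_apply, map_at Sum.inl_injective u i c, h4, add_zero]
      rw [Finset.sum_congr rfl fun i _ => e1 i]
      exact h2 u hu' c
    · have e1 : ∀ i, (u.mapDomain (fun p : Fin m × σ => (p.1, (Sum.inl p.2 : σ ⊕ τ))) +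
          u2.mapDomain (fun p : Fin m × τ => (p.1, (Sum.inr p.2 : σ ⊕ τ)))) (i, Sum.inr c) =
          u2 (i, c) := by
        intro i
        have h4 : u.mapDomain (fun p : Fin m × σ => (p.1, (Sum.inl p.2 : σ ⊕ τ)))
            (i, Sum.inr c) = 0 := by
          apply Finsupp.mapDomain_of_notMem_range
          rintro ⟨p, hp⟩
          have h3 := congrArg Prod.snd hp
          simp at h3
        rw [Finsupp.add_apply, map_at Sum.inr_injective u2 i c, h4, zero_add]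
      rw [Finset.sum_congr rfl fun i _ => e1 i]
      exact g2 u2 hu2' c
  · rw [Fintype.sum_sum_type]
    have e1 : ∑ c : σ, pderiv (i, (Sum.inl c : σ ⊕ τ))
        (SZR5.ren m Sum.inl f * SZR5.ren m Sum.inr g) =
        SZR5.ren m Sum.inl (∑ c : σ, pderiv (i, c) f) * SZR5.ren m Sum.inr g := by
      rw [map_sum, Finset.sum_mul]
      refine Finset.sum_congr rfl fun c _ => ?_
      rw [pderiv_mul, pd_inl, pd_inl_inr, mul_zero, add_zero]
    have e2 : ∑ c : τ, pderiv (i, (Sum.inr c : σ ⊕ τ))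
        (SZR5.ren m Sum.inl f * SZR5.ren m Sum.inr g) =
        SZR5.ren m Sum.inl f * SZR5.ren m Sum.inr (∑ c : τ, pderiv (i, c) g) := by
      rw [map_sum, Finset.mul_sum]
      refine Finset.sum_congr rfl fun c _ => ?_
      rw [pderiv_mul, pd_inr, pd_inr_inl, zero_mul, zero_add]
    rw [e1, e2, h3 i, g3 i, map_zero, map_zero, zero_mul, mul_zero, add_zero]

/-- The symmetrised product. -/
noncomputable def star {p M : ℕ} (f : MvPolynomial (Fin m × Fin p) ℂ)
    (g : MvPolynomial (Fin m × Fin M) ℂ) : MvPolynomial (Fin m × Fin (p + M)) ℂ :=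
  ∑ s : Equiv.Perm (Fin (p + M)), SZR5.ren m (finSumFinEquiv.trans s)
    (SZR5.ren m Sum.inl f * SZR5.ren m Sum.inr g)

lemma ren_ren {ρ : Type} (e : σ → τ) (e' : τ → ρ) (f : MvPolynomial (Fin m × σ) ℂ) :
    SZR5.ren m e' (SZR5.ren m e f) = SZR5.ren m (fun c => e' (e c)) f := by
  unfold SZR5.ren
  rw [rename_rename]
  rfl

lemma star_sy {p M : ℕ} (f : MvPolynomial (Fin m × Fin p) ℂ)
    (g : MvPolynomial (Fin m × Fin M) ℂ) : Sy m (Fin (p + M)) (star f g) := by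
  intro e
  change SZR5.ren m e (star f g) = star f g
  unfold star
  rw [map_sum]
  refine Fintype.sum_equiv (Equiv.mulLeft e) _ _ fun s => ?_
  rw [ren_ren]
  rfl

lemma star_ad {p M a : ℕ} {mu nu : Fin m → ℕ} {f : MvPolynomial (Fin m × Fin p) ℂ}
    {g : MvPolynomial (Fin m × Fin M) ℂ} (hf : Ad m (Fin p) a mu f) (hg : Ad m (Fin M) a nu g) :
    Ad m (Fin (p + M)) a (mu + nu) (star f g) := by
  have h := fun s : Equiv.Perm (Fin (p + M)) => (hf.mul hg).ren (finSumFinEquiv.trans s)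
  refine ⟨Submodule.sum_mem _ fun s _ => (h s).1, fun v hv => ?_, fun i => ?_⟩
  · rw [star, coeff_sum] at hv
    obtain ⟨s, _, hs⟩ := Finset.exists_ne_zero_of_sum_ne_zero hv
    exact (h s).2.1 v hs
  · unfold star
    have h1 : ∀ j, pderiv (i, j) (∑ s : Equiv.Perm (Fin (p + M)),
        SZR5.ren m (finSumFinEquiv.trans s) (SZR5.ren m Sum.inl f * SZR5.ren m Sum.inr g)) =
        ∑ s : Equiv.Perm (Fin (p + M)), pderiv (i, j)
          (SZR5.ren m (finSumFinEquiv.trans s) (SZR5.ren m Sum.inl f * SZR5.ren m Sum.inr g)) :=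
      fun j => map_sum _ _ _
    rw [Finset.sum_congr rfl fun j _ => h1 j, Finset.sum_comm]
    exact Finset.sum_eq_zero fun s _ => (h s).2.2 i

lemma star_mem {p M a : ℕ} {mu nu : Fin m → ℕ} {f : MvPolynomial (Fin m × Fin p) ℂ}
    {g : MvPolynomial (Fin m × Fin M) ℂ} (hf : f ∈ TI p a m mu) (hg : g ∈ TI M a m nu) :
    star f g ∈ TI (p + M) a m (mu + nu) := by
  rw [mem_TI] at hf hg
  obtain ⟨h1, h2, h3⟩ := star_ad (a := a) ⟨hf.1, hf.2.2⟩ ⟨hg.1, hg.2.2⟩
  exact mem_TI.2 ⟨h1, star_sy f g, h2, h3⟩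

lemma Th_star {p M : ℕ} (f : MvPolynomial (Fin m × Fin p) ℂ)
    (g : MvPolynomial (Fin m × Fin M) ℂ) :
    Th m _ (star f g) = ((p + M).factorial : ℂ) • (Th m _ f * Th m _ g) := by
  unfold star
  rw [map_sum, Finset.sum_congr rfl fun s _ => Th_ren _ _, Finset.sum_const, Th_mul,
    Finset.card_univ, Fintype.card_perm, Fintype.card_fin, ← Nat.cast_smul_eq_nsmul ℂ]

lemma one_mem (a M m : ℕ) : (1 : MvPolynomial (Fin m × Fin M) ℂ) ∈ TI M a m 0 := by
  classical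
  rw [mem_TI]
  refine ⟨HW_one, fun e => map_one _, fun v hv j => ?_, fun i =>
    Finset.sum_eq_zero fun j _ => by rw [pderiv_one]⟩
  rw [coeff_one] at hv
  have h : v = 0 := by
    by_contra h
    exact hv (if_neg (fun h' => h h'.symm))
  subst h
  simp

lemma Th_one (m M : ℕ) : Th m (Fin M) 1 = (X 0 : MvPolynomial (Fin m → ℕ) ℂ) ^ M := by
  have h : (1 : MvPolynomial (Fin m × Fin M) ℂ) = monomial 0 1 := rfl
  rw [h, Th_monomial, X_pow_eq_monomial]
  congr 1
  unfold cont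
  have h1 : ∀ c : Fin M, col (0 : Fin m × Fin M →₀ ℕ) c = 0 := fun c => rfl
  rw [Finset.sum_congr rfl fun c _ => by rw [h1 c], Finset.sum_const, Finset.card_univ,
    Fintype.card_fin]
  ext y
  simp

end Vale.Agent.P181.DH.H674
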