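import Vale.Agent.P181.SZR5.Basic

set_option autoImplicit false

/-!
# P181, DH: the letters of a polynomial in several columns
-/

open MvPolynomial

namespace Vale.Agent.P181.DH.H674

open Vale.Agent.P181.SZR5 (ren)

variable {m : ℕ} {σ τ : Type}

/-- The column `c` of the exponent `v`. -/
def col (v : Fin m × σ →₀ ℕ) (c : σ) : Fin m → ℕ := fun i => v (i, c)

/-- The content of an exponent: the multiset of its columns. -/
noncomputable def cont [Fintype σ] (v : Fin m × σ →₀ ℕ) : (Fin m → ℕ) →₀ ℕ :=
  ∑ c : σ, Finsupp.single (col v c) 1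

open scoped Classical in
lemma cont_apply [Fintype σ] (v : Fin m × σ →₀ ℕ) (y : Fin m → ℕ) :
    cont v y = (Finset.univ.filter fun c : σ => col v c = y).card := by
  rw [cont, Finsupp.finsetSum_apply, Finset.card_filter]
  exact Finset.sum_congr rfl fun c _ => Finsupp.single_apply

/-- The letters of a polynomial. -/
noncomputable def Th (m : ℕ) (σ : Type) [Fintype σ] :
    MvPolynomial (Fin m × σ) ℂ →ₗ[ℂ] MvPolynomial (Fin m → ℕ) ℂ :=
  (basisMonomials (Fin m × σ) ℂ).constr ℂ fun v => monomial (cont v) 1

lemma Th_monomial [Fintype σ] (v : Fin m × σ →₀ ℕ) (r : ℂ) :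
    Th m σ (monomial v r) = monomial (cont v) r := by
  have h : monomial v r = r • basisMonomials (Fin m × σ) ℂ v := by
    rw [coe_basisMonomials, smul_monomial, smul_eq_mul, mul_one]
  rw [h, map_smul, Th, Module.Basis.constr_basis, smul_monomial, smul_eq_mul, mul_one]

lemma pinj {e : σ → τ} (he : Function.Injective e) :
    Function.Injective fun p : Fin m × σ => (p.1, e p.2) := by
  rintro ⟨a, b⟩ ⟨c, d⟩ h
  have h1 := congrArg Prod.fst h
  have h2 := congrArg Prod.snd h
  simp only at h1 h2
  rw [h1, he h2]

lemma map_at {e : σ → τ} (he : Function.Injective e) (v : Fin m × σ →₀ ℕ) (i : Fin m) (c : σ) :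
    v.mapDomain (fun p : Fin m × σ => (p.1, e p.2)) (i, e c) = v (i, c) :=
  Finsupp.mapDomain_apply (pinj he) v (i, c)

lemma Th_ren [Fintype σ] [Fintype τ] (e : σ ≃ τ) (f : MvPolynomial (Fin m × σ) ℂ) :
    Th m τ (ren m e f) = Th m σ f := by
  induction f using MvPolynomial.induction_on' with
  | monomial v r =>
    have h : cont (v.mapDomain (fun p : Fin m × σ => (p.1, e p.2))) = cont v := by
      unfold cont
      refine (Fintype.sum_equiv e _ _ fun c => ?_).symm
      have h1 : col (v.mapDomain (fun p : Fin m × σ => (p.1, e p.2))) (e c) = col v c := by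
        funext i
        exact map_at e.injective v i c
      rw [h1]
    rw [ren, rename_monomial, Th_monomial, Th_monomial, h]
  | add p q hp hq => rw [map_add, map_add, map_add, hp, hq]

lemma Th_mul [Fintype σ] [Fintype τ] (f : MvPolynomial (Fin m × σ) ℂ)
    (g : MvPolynomial (Fin m × τ) ℂ) :
    Th m (σ ⊕ τ) (ren m Sum.inl f * ren m Sum.inr g) = Th m σ f * Th m τ g := by
  induction f using MvPolynomial.induction_on' with
  | monomial v r =>
    induction g using MvPolynomial.induction_on' with
    | monomial u s =>
      have h : cont (v.mapDomain (fun p : Fin m × σ => (p.1, (Sum.inl p.2 : σ ⊕ τ))) +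
          u.mapDomain (fun p : Fin m × τ => (p.1, (Sum.inr p.2 : σ ⊕ τ)))) =
          cont v + cont u := by
        unfold cont
        rw [Fintype.sum_sum_type]
        apply congrArg₂
        · refine Finset.sum_congr rfl fun c _ => ?_
          have h0 : col (v.mapDomain (fun p : Fin m × σ => (p.1, (Sum.inl p.2 : σ ⊕ τ))) +
            u.mapDomain (fun p : Fin m × τ => (p.1, (Sum.inr p.2 : σ ⊕ τ)))) (Sum.inl c) =
              col v c := by
            funext i
            have h1 := map_at (Sum.inl_injective (α := σ) (β := τ)) v i c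
            have h2 : u.mapDomain (fun p : Fin m × τ => (p.1, (Sum.inr p.2 : σ ⊕ τ)))
                (i, Sum.inl c) = 0 := by
              apply Finsupp.mapDomain_of_notMem_range
              rintro ⟨p, hp⟩
              have h3 := congrArg Prod.snd hp
              simp at h3
            unfold col
            rw [Finsupp.add_apply, h1, h2, add_zero]
          rw [h0]
        · refine Finset.sum_congr rfl fun c _ => ?_
          have h0 : col (v.mapDomain (fun p : Fin m × σ => (p.1, (Sum.inl p.2 : σ ⊕ τ))) +
            u.mapDomain (fun p : Fin m × τ => (p.1, (Sum.inr p.2 : σ ⊕ τ)))) (Sum.inr c) =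
              col u c := by
            funext i
            have h1 := map_at (Sum.inr_injective (α := σ) (β := τ)) u i c
            have h2 : v.mapDomain (fun p : Fin m × σ => (p.1, (Sum.inl p.2 : σ ⊕ τ)))
                (i, Sum.inr c) = 0 := by
              apply Finsupp.mapDomain_of_notMem_range
              rintro ⟨p, hp⟩
              have h3 := congrArg Prod.snd hp
              simp at h3
            unfold col
            rw [Finsupp.add_apply, h1, h2, zero_add]
          rw [h0]
      rw [ren, ren, rename_monomial, rename_monomial, monomial_mul, Th_monomial, Th_monomial,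
        Th_monomial, monomial_mul, h]
    | add p q hp hq => rw [map_add, mul_add, map_add, map_add, mul_add, hp, hq]
  | add p q hp hq => rw [map_add, add_mul, map_add, map_add, add_mul, hp, hq]

/-- Invariance under the permutations of the columns. -/
def Sy (m : ℕ) (σ : Type) (f : MvPolynomial (Fin m × σ) ℂ) : Prop :=
  ∀ e : Equiv.Perm σ, rename (fun p : Fin m × σ => (p.1, e p.2)) f = f

/-- Two exponents with the same content have the same coefficient in a symmetric polynomial. -/
lemma coeff_eq_of_cont [Fintype σ] {f : MvPolynomial (Fin m × σ) ℂ} (hf : Sy m σ f)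
    {u v : Fin m × σ →₀ ℕ} (h : cont u = cont v) : coeff u f = coeff v f := by
  classical
  have hc : ∀ y : Fin m → ℕ, Fintype.card {c : σ // col u c = y} =
      Fintype.card {c : σ // col v c = y} := by
    intro y
    have h1 := congrArg (fun F => F y) h
    simp only [cont_apply] at h1
    rw [Fintype.card_subtype, Fintype.card_subtype]
    convert h1
  let e : Equiv.Perm σ := Equiv.ofFiberEquiv (f := col u) (g := col v)
    fun y => Fintype.equivOfCardEq (hc y)
  have he : ∀ c, col v (e c) = col u c := fun c => Equiv.ofFiberEquiv_map _ c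
  have h2 : u.mapDomain (fun p : Fin m × σ => (p.1, e p.2)) = v := by
    ext ⟨i, c⟩
    obtain ⟨c', rfl⟩ := e.surjective c
    rw [map_at e.injective]
    exact (congrFun (he c') i).symm
  calc coeff u f = coeff (u.mapDomain (fun p : Fin m × σ => (p.1, e p.2)))
        (rename (fun p : Fin m × σ => (p.1, e p.2)) f) :=
        (coeff_rename_mapDomain _ (pinj e.injective) _ _).symm
    _ = coeff v f := by rw [h2, hf e]

/-- The key: the coefficients of the letters. -/
lemma coeff_Th_ne [Fintype σ] {f : MvPolynomial (Fin m × σ) ℂ} (hf : Sy m σ f)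
    {v : Fin m × σ →₀ ℕ} (hv : coeff v f ≠ 0) : coeff (cont v) (Th m σ f) ≠ 0 := by
  classical
  have h1 : coeff (cont v) (Th m σ f) =
      ∑ u ∈ f.support, if cont u = cont v then coeff u f else 0 := by
    conv_lhs => rw [← support_sum_monomial_coeff f]
    rw [map_sum, coeff_sum]
    refine Finset.sum_congr rfl fun u _ => ?_
    rw [Th_monomial, coeff_monomial]
  have h2 : ∑ u ∈ f.support, (if cont u = cont v then coeff u f else 0) =
      ((f.support.filter fun u => cont u = cont v).card : ℂ) * coeff v f := by
    rw [← Finset.sum_filter, Finset.sum_congr rfl fun u hu =>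
      coeff_eq_of_cont hf (Finset.mem_filter.1 hu).2, Finset.sum_const, nsmul_eq_mul]
  rw [h1, h2]
  apply mul_ne_zero _ hv
  rw [Nat.cast_ne_zero]
  apply Finset.card_ne_zero_of_mem (a := v)
  rw [Finset.mem_filter, mem_support_iff]
  exact ⟨hv, rfl⟩

lemma Th_inj [Fintype σ] {f : MvPolynomial (Fin m × σ) ℂ} (hf : Sy m σ f)
    (h : Th m σ f = 0) : f = 0 := by
  by_contra h0
  obtain ⟨v, hv⟩ := ne_zero_iff.1 h0
  apply coeff_Th_ne hf hv
  rw [h, coeff_zero]

/-- A monomial without empty column: the letters are not divisible by the empty letter. -/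
lemma not_dvd [Fintype σ] {f : MvPolynomial (Fin m × σ) ℂ} (hf : Sy m σ f)
    {v : Fin m × σ →₀ ℕ} (hv : coeff v f ≠ 0) (hc : ∀ c, ∃ i, v (i, c) ≠ 0) :
    ¬ (X 0 : MvPolynomial (Fin m → ℕ) ℂ) ∣ Th m σ f := by
  classical
  rintro ⟨q, hq⟩
  apply coeff_Th_ne hf hv
  rw [hq, coeff_X_mul', if_neg]
  rw [Finsupp.mem_support_iff, not_not, cont_apply, Finset.card_eq_zero]
  rw [Finset.filter_eq_empty_iff]
  intro c _ h
  obtain ⟨i, hi⟩ := hc c
  exact hi (congrFun h i)

/-- If `X_0` to the number of columns divides the letters, only the constant monomial occurs. -/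
lemma eq_zero_of_dvd [Fintype σ] {f : MvPolynomial (Fin m × σ) ℂ} (hf : Sy m σ f)
    (h : (X 0 : MvPolynomial (Fin m → ℕ) ℂ) ^ Fintype.card σ ∣ Th m σ f)
    {v : Fin m × σ →₀ ℕ} (hv : coeff v f ≠ 0) : v = 0 := by
  classical
  obtain ⟨q, hq⟩ := h
  have h1 := coeff_Th_ne hf hv
  rw [hq, X_pow_eq_monomial, coeff_monomial_mul'] at h1
  have h2 : Finsupp.single 0 (Fintype.card σ) ≤ cont v := by
    by_contra h2
    exact h1 (if_neg h2)
  have h3 := h2 0
  rw [Finsupp.single_eq_same, cont_apply] at h3
  have h4 : (Finset.univ.filter fun c : σ => col v c = 0) = Finset.univ := by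
    apply Finset.eq_univ_of_card
    exact le_antisymm (Finset.card_le_univ _) h3
  ext ⟨i, c⟩
  have h5 : c ∈ (Finset.univ.filter fun c : σ => col v c = 0) := by
    rw [h4]
    exact Finset.mem_univ _
  exact congrFun (Finset.mem_filter.1 h5).2 i

end Vale.Agent.P181.DH.H674
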